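import Vale.Agent.P235.K5.SX.Defs
import Vale.Agent.P235.K5.H12.Fin

set_option autoImplicit false
set_option linter.all false

/-!
# Line SX, the assembly (helper655): the embedding from the rows S1 - S6
-/

namespace Vale.Agent.P235.K5.SX

open SimpleGraph Vale.Agent.P235 Vale.Agent.P235.K5

/-- the bags of type `T` (`TT s`) add one vertex each; `RR s` is the root adhesion of the region
of `s` -/
structure Region {V : Type} (m : ℕ) (B : ℕ → Set V) (T : BTree m B) (TT : ℕ → Prop)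
    (RR : ℕ → Set V) : Prop where
  one : ∀ s < m, TT s → ∃ v, v ∉ Adh B s ∧ B s = insert v (Adh B s)
  step : ∀ s < m, TT s → 0 < s → Adh B s ⊆ RR s ∨ (TT (T.par s) ∧ RR (T.par s) = RR s)

/-- [S4] the semimetric `N`: freshness (as in `H12.exists_N`) and capture in the regions -/
def NStmt : Prop :=
  ∀ k : ℕ, 1 ≤ k → ∃ cN C2 : ℝ, 0 < cN ∧ cN ≤ 1 ∧ 0 < C2 ∧
    ∀ (V : Type) [Finite V] (H : SimpleGraph V) (m : ℕ) (B : ℕ → Set V) (h : Glued k H m B)
      (T : BTree m B) (TT : ℕ → Prop) (RR : ℕ → Set V),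
      (∀ t < m, ∃ v ∈ B t, v ∉ Bef B t) → Region m B T TT RR →
      ∀ d : V → V → ℝ, IsMet d → Gen H d →
        ∃ F : V → V → ℝ, IsL1 F ∧ (∀ x y, F x y ≤ d x y) ∧
          (∀ t < m, 0 < t → ∀ x ∈ h.Sub T t, ∀ y ∉ h.Sub T t, ∀ r : ℝ, 0 < r →
            (∀ a ∈ Adh B t, r ≤ d x a) → r ≤ C2 * F x y) ∧
          ∀ s < m, TT s → ∀ x ∈ B s, ∀ y ∈ B s, ∀ M : ℝ, M ≤ d x y →
            (∀ r ∈ RR s, ∀ r' ∈ RR s, M ≤ d x r + d y r') → cN * M ≤ F x y

/-- [S5c] the regions of the fine decomposition -/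
theorem region {w n : ℕ} {V : Type} {H : SimpleGraph V} {B : ℕ → Set V} {T : ℕ → Prop}
    {H' : SimpleGraph V} {m : ℕ} {C : ℕ → Set V} {phi : ℕ → ℕ} (h : Refn w H n B T H' m C phi)
    (Y : BTree m C) : Region m C Y (fun s => T (phi s)) (fun s => Adh B (phi s)) where
  one := h.pT
  step := by
    intro s hs hT h0
    by_cases hsub : Adh C s ⊆ Adh B (phi s)
    · exact Or.inl hsub
    · right
      rw [Set.not_subset] at hsub
      obtain ⟨u, hu, hu'⟩ := hsub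
      have h1 : u ∈ B (phi s) := h.sub s hs hu.1
      have h2 : u ∉ Bef B (phi s) := fun hc => hu' ⟨h1, hc⟩
      have h3 : Y.par s < s := Y.par_lt s h0 hs
      have h4 : u ∈ B (phi (Y.par s)) := h.sub _ (h3.trans hs) (Y.adh s h0 hs hu)
      have h5 : phi (Y.par s) ≤ phi s := h.mono h3.le
      have h6 : phi (Y.par s) = phi s := by
        rcases h5.lt_or_eq with h7 | h7
        · exact absurd ⟨_, h7, h4⟩ h2
        · exact h7
      exact ⟨by rw [h6]; exact hT, by rw [h6]⟩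

theorem gen_le {V : Type} {H H' : SimpleGraph V} (hle : H ≤ H') {d : V → V → ℝ}
    (hG : Gen H d) : Gen H' d :=
  fun f hf x y => hG f (fun u v huv => hf u v (hle huv)) x y

/-- restriction of `S1Stmt`, `S2Stmt` to a bag, and the semimetric `A` -/
theorem exists_A (h1 : S1Stmt) (h2 : S2Stmt) (h3 : S3Stmt) {c : ℝ} (hc : 0 < c) (hc1 : c ≤ 1)
    {V : Type} [Finite V] {H : SimpleGraph V} {n : ℕ} {B : ℕ → Set V} {T : ℕ → Prop}
    (h : Glued 3 H n B)
    (hB : ∀ t < n, T t ∨ H500.PC c (B t) (H.induce (B t)) {x | (x : V) ∈ Adh B t})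
    {d : V → V → ℝ} (hd : IsMet d) (hG : Gen H d) :
    ∃ A : V → V → ℝ, IsL1 A ∧ (∀ x y, A x y ≤ d x y) ∧
      ∀ t < n, ∀ x ∈ B t, ∀ y ∈ B t, Tri3 (c / 12288) (T t) d A (Adh B t) x y := by
  refine h3 V H n B T h d hd hG (c / 12288) (by positivity) ?_
  intro t ht ρ hρ hρd
  have hsub : Adh B t ⊆ B t := fun v hv => hv.1
  have hd' : IsMet fun x y : B t => d x y :=
    ⟨fun x => hd.self _, fun x y hxy => hd.pos _ _ fun e => hxy (Subtype.ext e),
      fun x y => hd.symm _ _, fun x y z => hd.tri _ _ _⟩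
  have hG' : Gen (H.induce (B t)) fun x y : B t => d x y := h.gen_bag hd hG ht
  have hcard : ({x | (x : V) ∈ Adh B t} : Set (B t)).ncard ≤ 3 := by
    rw [H500.ncard_sub hsub]; exact h.card t ht
  by_cases hT : T t
  · obtain ⟨F, g1, g2, g3, g4⟩ := h2 (B t) (fun x y : B t => d x y) hd'
      {x | (x : V) ∈ Adh B t} hcard (fun x y : B t => ρ x y) (H500.isL1_restrict hρ _)
      (fun u hu v hv => hρd u hu v hv)
    obtain ⟨F', e1, e2⟩ := extendL1 g1
    refine ⟨F', e1, ?_, ?_, ?_⟩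
    · intro x hx y hy
      exact (e2 ⟨x, hsub hx⟩ ⟨y, hsub hy⟩).trans (g2 _ hx _ hy)
    · intro x hx y hy
      rw [e2 ⟨x, hx⟩ ⟨y, hy⟩]
      exact g3 _ _
    · intro x hx y hy
      have hdn := hd.nonneg x y
      rcases g4 ⟨x, hx⟩ ⟨y, hy⟩ with h5 | ⟨r, hr, s, hs, h5⟩ | ⟨_, h5⟩
      · left
        rw [e2 ⟨x, hx⟩ ⟨y, hy⟩]
        have h6 : c / 12288 * d x y ≤ 1 / 1024 * d x y :=
          mul_le_mul_of_nonneg_right (by linarith) hdn
        exact h6.trans h5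
      · right; left
        refine ⟨r, hr, s, hs, ?_⟩
        rw [e2 ⟨x, hx⟩ ⟨y, hy⟩, e2 r s]
        have h6 : 0 ≤ d x r + d y s := add_nonneg (hd.nonneg _ _) (hd.nonneg _ _)
        have h7 : c / 12288 * (d x r + d y s) ≤ 1 / 1024 * (d x r + d y s) :=
          mul_le_mul_of_nonneg_right (by linarith) h6
        have h8 : F r s + 1 / 1024 * (d x r + d y s) ≤ F ⟨x, hx⟩ ⟨y, hy⟩ := h5
        linarith
      · right; right
        refine ⟨hT, fun r hr s hs => ?_⟩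
        have h8 : 1 / 1024 * d x y ≤ d x r + d y s := h5 ⟨r, hsub hr⟩ hr ⟨s, hsub hs⟩ hs
        have h6 : c / 12288 * d x y ≤ 1 / 1024 * d x y :=
          mul_le_mul_of_nonneg_right (by linarith) hdn
        exact h6.trans h8
  · obtain ⟨hconn, hE, hno⟩ := (hB t ht).resolve_left hT
    obtain ⟨F, g1, g2, g3, g4⟩ := h1 (B t) (H.induce (B t)) c hc hc1 hconn hE
      (fun x y : B t => d x y) hd' hG' {x | (x : V) ∈ Adh B t} hcard
      (fun u hu v hv huv => h.clique t ht u hu v hv fun e => huv (Subtype.ext e)) hno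
      (fun x y : B t => ρ x y) (H500.isL1_restrict hρ _) (fun u hu v hv => hρd u hu v hv)
    obtain ⟨F', e1, e2⟩ := extendL1 g1
    refine ⟨F', e1, ?_, ?_, ?_⟩
    · intro x hx y hy
      exact (e2 ⟨x, hsub hx⟩ ⟨y, hsub hy⟩).trans (g2 _ hx _ hy)
    · intro x hx y hy
      rw [e2 ⟨x, hx⟩ ⟨y, hy⟩]
      exact g3 _ _
    · intro x hx y hy
      rcases g4 ⟨x, hx⟩ ⟨y, hy⟩ with h5 | ⟨r, hr, s, hs, h5⟩ | ⟨h5, _⟩
      · left
        rw [e2 ⟨x, hx⟩ ⟨y, hy⟩]
        exact h5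
      · right; left
        refine ⟨r, hr, s, hs, ?_⟩
        rw [e2 ⟨x, hx⟩ ⟨y, hy⟩, e2 r s]
        exact h5
      · exact h5.elim

/-- **[S7] the embedding** -/
theorem emb (h1 : S1Stmt) (h2 : S2Stmt) (h3 : S3Stmt) (h4 : NStmt) (h5 : S5Stmt) (h6 : S6Stmt)
    (w : ℕ) (c : ℝ) (hc : 0 < c) (hc1 : c ≤ 1) :
    ∃ D : ℝ, 0 < D ∧ D ≤ 1 ∧ ∀ (V : Type) [Finite V] (H : SimpleGraph V) (n : ℕ) (B : ℕ → Set V)
      (T : ℕ → Prop), Glued 3 H n B →
      (∀ t < n, T t → TreewidthLE (H.induce (B t)) w) →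
      (∀ t < n, T t ∨ H500.PC c (B t) (H.induce (B t)) {x | (x : V) ∈ Adh B t}) →
      ∀ d : V → V → ℝ, IsMet d → Gen H d → R2.H598.Emb d D := by
  obtain ⟨cN, C2, hcN, hcN1, hC2, HN⟩ := h4 (max 3 w) (by omega)
  set k : ℝ := c / 12288 with hkdef
  have hk : 0 < k := by positivity
  have hk1 : k ≤ 1 := by rw [hkdef]; linarith
  set c0 : ℝ := min (k / 2) (k / 4 * cN * k) with hc0def
  have hc0 : 0 < c0 := lt_min (by positivity) (by positivity)
  have hc01 : c0 ≤ 1 := (min_le_left _ _).trans (by linarith)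
  refine ⟨min (c0 / 2) (c0 / (8 * C2)) / 2, ?_, ?_, ?_⟩
  · have : 0 < min (c0 / 2) (c0 / (8 * C2)) := lt_min (by positivity) (by positivity)
    linarith
  · have : min (c0 / 2) (c0 / (8 * C2)) ≤ c0 / 2 := min_le_left _ _
    linarith
  intro V _ H n B T hG hTw hB d hd hgen
  obtain ⟨H', m, C, phi, hF⟩ := h5 w V H n B T hG hTw
  obtain ⟨Y⟩ := hF.glued.exists_tree
  have hgen' : Gen H' d := gen_le hF.le hgen
  obtain ⟨A, hA0, hA1, hA2⟩ := exists_A h1 h2 h3 hc hc1 hG hB hd hgen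
  obtain ⟨N, hN0, hN1, hN2, hN3⟩ := HN V H' m C hF.glued Y (fun s => T (phi s))
    (fun s => Adh B (phi s)) hF.new (region hF Y) d hd hgen'
  have hmix := h6 w V H n B T H' m C phi hG hF d hd k cN hk hk1 hcN hcN1 A N hA0 hN0 hA1 hN1
    hA2 hN3
  have hk4 : 0 ≤ 1 - k / 4 := by linarith
  have hk5 : 0 ≤ k / 4 := by linarith
  have hFA : IsL1 fun x y => (1 - k / 4) * A x y + k / 4 * N x y :=
    (hA0.smul hk4).add (hN0.smul hk5)
  have hFA1 : ∀ x y, (1 - k / 4) * A x y + k / 4 * N x y ≤ d x y := by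
    intro x y
    have g1 := mul_le_mul_of_nonneg_left (hA1 x y) hk4
    have g2 := mul_le_mul_of_nonneg_left (hN1 x y) hk5
    linarith
  have hcr := H12.cross hF.glued Y hd hc0 hc01 hC2 hFA hN0 hFA1 hmix hN2
  refine ⟨fun x y => 1 / 2 * (((1 - k / 4) * A x y + k / 4 * N x y) + N x y),
    (hFA.add hN0).smul (by norm_num), ?_, ?_⟩
  · intro x y
    have g1 := hcr x y
    show _ ≤ 1 / 2 * (((1 - k / 4) * A x y + k / 4 * N x y) + N x y)
    linarith
  · intro x y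
    have g1 := hFA1 x y
    have g2 := hN1 x y
    show 1 / 2 * (((1 - k / 4) * A x y + k / 4 * N x y) + N x y) ≤ _
    linarith

/-- a graph with a clique decomposition over at most three vertices into pieces of the class `PC c`
and pieces of treewidth at most `w` -/
def Sum3 (w : ℕ) (c : ℝ) {V : Type} (H : SimpleGraph V) : Prop :=
  ∃ (n : ℕ) (B : ℕ → Set V), Glued 3 H n B ∧
    ∀ t < n, TreewidthLE (H.induce (B t)) w ∨
      H500.PC c (B t) (H.induce (B t)) {x | (x : V) ∈ Adh B t}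

/-- **[S7] the final form** -/
theorem fin (h1 : S1Stmt) (h2 : S2Stmt) (h3 : S3Stmt) (h4 : NStmt) (h5 : S5Stmt) (h6 : S6Stmt)
    (w : ℕ) (c : ℝ) (hc : 0 < c) (hc1 : c ≤ 1) :
    ∃ K : ℝ, 1 ≤ K ∧ ∀ (V : Type) [Finite V] (G H : SimpleGraph V), G ≤ H → G.Connected →
      Sum3 w c H → DistortionLE G K := by
  obtain ⟨D, hD, hD1, HD⟩ := emb h1 h2 h3 h4 h5 h6 w c hc hc1
  refine ⟨1 / D, (one_le_div hD).2 hD1, ?_⟩
  intro V _ G H hle hconn hS ℓ hℓ
  obtain ⟨n, B, hG, hB⟩ := hS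
  have hd := pathDist_isMet hconn hℓ
  have hgenG : Gen G (pathDist G ℓ) := by
    intro f hf x y
    exact pathDist_gen hconn (fun u v huv => (hf u v huv).trans (pathDist_adj hℓ huv)) x y
  have hgen : Gen H (pathDist G ℓ) := gen_le hle hgenG
  exact (HD V H n B (fun t => TreewidthLE (H.induce (B t)) w) hG (fun t _ h => h) hB _ hd
    hgen).embedsL1 hD

end Vale.Agent.P235.K5.SX
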