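import Vale.Agent.P235.K5.Cap
import Vale.Agent.P235.K5.H12.Int

/-!
# Line SX: sums of planar pieces and pieces of bounded treewidth over cliques with at most three
vertices. Literals (helper404, after helper655, board #17786).
-/

set_option autoImplicit false

namespace Vale.Agent.P235.K5.SX

open SimpleGraph Vale.Agent.P235 Vale.Agent.P235.H134 Vale.Agent.P235.H56 Vale.Agent.P235.K5
open Vale.Agent.P235.H341W (capG)

/-- the three cases of the lower bound of `F` at `x`, `y`: the full bound, a bound through two roots,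
or (only if `far`) both points together are far from the roots -/
def Tri3 {V : Type} (k : ℝ) (far : Prop) (d F : V → V → ℝ) (R : Set V) (x y : V) : Prop :=
  k * d x y ≤ F x y ∨ (∃ r ∈ R, ∃ s ∈ R, F r s + k * (d x r + d y s) ≤ F x y) ∨
    (far ∧ ∀ r ∈ R, ∀ s ∈ R, k * d x y ≤ d x r + d y s)

/-- [S1] pieces of type P -/
def S1Stmt : Prop :=
  ∀ (V : Type) [Finite V] (G : SimpleGraph V) (c : ℝ), 0 < c → c ≤ 1 → G.Connected →
    EdgeExact G c → ∀ d : V → V → ℝ, IsMet d → Gen G d → ∀ R : Set V, R.ncard ≤ 3 →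
      (∀ u ∈ R, ∀ v ∈ R, u ≠ v → G.Adj u v) → (R.ncard = 3 → ¬ IsMinor K33 (capG G R)) →
      ∀ ρ : V → V → ℝ, IsL1 ρ → (∀ x ∈ R, ∀ y ∈ R, ρ x y ≤ d x y) →
        ∃ F : V → V → ℝ, IsL1 F ∧ (∀ x ∈ R, ∀ y ∈ R, F x y = ρ x y) ∧ (∀ x y, F x y ≤ d x y) ∧
          ∀ x y, Tri3 (c / 12288) False d F R x y

/-- [S2] pieces of type T: any finite metric space -/
def S2Stmt : Prop :=
  ∀ (V : Type) [Finite V] (d : V → V → ℝ), IsMet d → ∀ R : Set V, R.ncard ≤ 3 →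
    ∀ ρ : V → V → ℝ, IsL1 ρ → (∀ x ∈ R, ∀ y ∈ R, ρ x y ≤ d x y) →
      ∃ F : V → V → ℝ, IsL1 F ∧ (∀ x ∈ R, ∀ y ∈ R, F x y = ρ x y) ∧ (∀ x y, F x y ≤ d x y) ∧
        ∀ x y, Tri3 (1 / 1024) True d F R x y

/-- [S3] the recursion along the tree -/
def S3Stmt : Prop :=
  ∀ (V : Type) [Finite V] (H : SimpleGraph V) (n : ℕ) (B : ℕ → Set V) (T : ℕ → Prop),
    Glued 3 H n B → ∀ d : V → V → ℝ, IsMet d → Gen H d → ∀ k : ℝ, 0 < k →
      (∀ t < n, ∀ ρ : V → V → ℝ, IsL1 ρ → (∀ x ∈ Adh B t, ∀ y ∈ Adh B t, ρ x y ≤ d x y) →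
        ∃ F : V → V → ℝ, IsL1 F ∧ (∀ x ∈ Adh B t, ∀ y ∈ Adh B t, F x y = ρ x y) ∧
          (∀ x ∈ B t, ∀ y ∈ B t, F x y ≤ d x y) ∧
          ∀ x ∈ B t, ∀ y ∈ B t, Tri3 k (T t) d F (Adh B t) x y) →
      ∃ A : V → V → ℝ, IsL1 A ∧ (∀ x y, A x y ≤ d x y) ∧
        ∀ t < n, ∀ x ∈ B t, ∀ y ∈ B t, Tri3 k (T t) d A (Adh B t) x y

/-- the fine tree: `C 0, …, C (m - 1)` refines `B 0, …, B (n - 1)`, pieces of type T are built up one
vertex at a time -/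
structure Refn (w : ℕ) {V : Type} (H : SimpleGraph V) (n : ℕ) (B : ℕ → Set V) (T : ℕ → Prop)
    (H' : SimpleGraph V) (m : ℕ) (C : ℕ → Set V) (phi : ℕ → ℕ) : Prop where
  le : H ≤ H'
  glued : Glued (max 3 w) H' m C
  mono : Monotone phi
  lt : ∀ s < m, phi s < n
  new : ∀ s < m, ∃ v ∈ C s, v ∉ Bef C s
  sub : ∀ s < m, C s ⊆ B (phi s)
  pP : ∀ s < m, ¬ T (phi s) → C s = B (phi s) ∧ Adh C s = Adh B (phi s)
  pT : ∀ s < m, T (phi s) → ∃ v, v ∉ Adh C s ∧ C s = insert v (Adh C s)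
  cov : ∀ t < n, ∀ v ∈ B t, ∃ s < m, phi s ≤ t ∧ v ∈ C s

/-- [S5] -/
def S5Stmt : Prop :=
  ∀ (w : ℕ) (V : Type) [Finite V] (H : SimpleGraph V) (n : ℕ) (B : ℕ → Set V) (T : ℕ → Prop),
    Glued 3 H n B → (∀ t < n, T t → TreewidthLE (H.induce (B t)) w) →
      ∃ (H' : SimpleGraph V) (m : ℕ) (C : ℕ → Set V) (phi : ℕ → ℕ), Refn w H n B T H' m C phi

/-- [S6] the mixture of `A` and `N`: the same constant at every level -/
def S6Stmt : Prop :=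
  ∀ (w : ℕ) (V : Type) [Finite V] (H : SimpleGraph V) (n : ℕ) (B : ℕ → Set V) (T : ℕ → Prop)
    (H' : SimpleGraph V) (m : ℕ) (C : ℕ → Set V) (phi : ℕ → ℕ), Glued 3 H n B →
    Refn w H n B T H' m C phi → ∀ d : V → V → ℝ, IsMet d →
      ∀ k cN : ℝ, 0 < k → k ≤ 1 → 0 < cN → cN ≤ 1 → ∀ A N : V → V → ℝ, IsL1 A → IsL1 N →
        (∀ x y, A x y ≤ d x y) → (∀ x y, N x y ≤ d x y) →
        (∀ t < n, ∀ x ∈ B t, ∀ y ∈ B t, Tri3 k (T t) d A (Adh B t) x y) →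
        (∀ s < m, T (phi s) → ∀ p ∈ C s, ∀ q ∈ C s, ∀ M : ℝ, M ≤ d p q →
          (∀ r ∈ Adh B (phi s), ∀ r' ∈ Adh B (phi s), M ≤ d p r + d q r') → cN * M ≤ N p q) →
        ∀ s < m, ∀ x ∈ C s, ∀ y ∈ C s,
          min (k / 2) (k / 4 * cN * k) * d x y ≤ (1 - k / 4) * A x y + k / 4 * N x y

end Vale.Agent.P235.K5.SX
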